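import Mathlib

/-!
# Row 250 (helper11): the Hankel integral `∫ e^{iλs} (a+is)^{-(n+2)} ds = 2π λ^{n+1} e^{-aλ}/(n+1)!`
-/

set_option autoImplicit false
open Set Filter Topology Complex MeasureTheory
open scoped Real Nat FourierTransform

noncomputable section

namespace Crest.Agent.N250.Hk

theorem norm_pow_exp (n : ℕ) (c : ℂ) {x : ℝ} (hx : 0 ≤ x) :
    ‖(x : ℂ) ^ n * exp (-c * x)‖ = x ^ n * Real.exp (-c.re * x) := by
  rw [norm_mul, norm_pow, norm_exp, Complex.norm_real, Real.norm_of_nonneg hx]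
  simp

theorem integrableOn_pow_exp (n : ℕ) {c : ℂ} (hc : 0 < c.re) :
    IntegrableOn (fun x : ℝ => (x : ℂ) ^ n * exp (-c * x)) (Ioi 0) := by
  have h := integrableOn_rpow_mul_exp_neg_mul_rpow (p := 1) (s := n)
    (by linarith [(Nat.cast_nonneg n : (0 : ℝ) ≤ n)]) one_pos hc
  refine Integrable.mono' h (Continuous.aestronglyMeasurable (by fun_prop)) ?_
  refine (ae_restrict_iff' measurableSet_Ioi).2 (Eventually.of_forall fun x hx => ?_)
  rw [norm_pow_exp n c (le_of_lt hx)]
  simp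

theorem tendsto_pow_exp (n : ℕ) {c : ℂ} (hc : 0 < c.re) :
    Tendsto (fun x : ℝ => (x : ℂ) ^ n * exp (-c * x)) atTop (𝓝 0) := by
  have h := ((Real.tendsto_pow_mul_exp_neg_atTop_nhds_zero n).comp
    (tendsto_id.const_mul_atTop hc)).div_const (c.re ^ n)
  rw [zero_div] at h
  refine squeeze_zero_norm' ((eventually_ge_atTop 0).mono fun x hx => le_of_eq ?_) h
  rw [norm_pow_exp n c hx]
  simp only [Function.comp, id, mul_pow, neg_mul]
  field_simp

theorem laplace_pow (n : ℕ) {c : ℂ} (hc : 0 < c.re) :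
    ∫ x : ℝ in Ioi 0, (x : ℂ) ^ n * exp (-c * x) = n ! / c ^ (n + 1) := by
  have hc0 : c ≠ 0 := fun h => by simp [h] at hc
  induction n with
  | zero =>
    have := integral_exp_mul_complex_Ioi (a := -c) (by simpa using hc) 0
    simpa [neg_div_neg_eq] using this
  | succ n ih =>
    have hd : ∀ x ∈ Ici (0 : ℝ), HasDerivAt (fun x : ℝ => (x : ℂ) ^ (n + 1) * exp (-c * x))
        (((n : ℂ) + 1) * ((x : ℂ) ^ n * exp (-c * x)) - c * ((x : ℂ) ^ (n + 1) * exp (-c * x)))
        x := fun x _ => by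
      have h1 := ((hasDerivAt_pow (n + 1) (x : ℂ)).fun_mul
        ((hasDerivAt_id' (x : ℂ)).const_mul (-c)).cexp).comp_ofReal
      refine h1.congr_deriv ?_
      simp only [Nat.add_sub_cancel]
      push_cast
      ring
    have h2 := integral_Ioi_of_hasDerivAt_of_tendsto' hd
      (((integrableOn_pow_exp n hc).const_mul _).sub ((integrableOn_pow_exp (n + 1) hc).const_mul _))
      (tendsto_pow_exp (n + 1) hc)
    rw [integral_sub ((integrableOn_pow_exp n hc).const_mul _)
      ((integrableOn_pow_exp (n + 1) hc).const_mul _), integral_const_mul, integral_const_mul,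
      ih] at h2
    simp only [ofReal_zero, ne_eq, Nat.add_eq_zero_iff, one_ne_zero, and_false, not_false_eq_true,
      zero_pow, zero_mul, sub_zero] at h2
    rw [eq_div_iff (pow_ne_zero _ hc0), Nat.factorial_succ]
    push_cast
    have h3 := sub_eq_zero.1 h2
    rw [← mul_div_assoc, div_eq_iff (pow_ne_zero _ hc0)] at h3
    rw [pow_succ c (n + 1)]
    linear_combination -h3

theorem integrable_inv_pow (n : ℕ) {a : ℝ} (ha : 0 < a) :
    Integrable fun s : ℝ => ((a + s * I : ℂ) ^ (n + 2))⁻¹ := by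
  have hne : ∀ s : ℝ, (a + s * I : ℂ) ≠ 0 := fun s h => ha.ne' (by simpa using congrArg re h)
  refine Integrable.mono'
    ((integrable_inv_one_add_sq.comp_mul_left' (inv_ne_zero ha.ne')).const_mul (a ^ (n + 2))⁻¹)
    (Continuous.aestronglyMeasurable (Continuous.inv₀ (by fun_prop)
      fun s => pow_ne_zero _ (hne s))) (Eventually.of_forall fun s => ?_)
  have h1 : a ≤ ‖(a + s * I : ℂ)‖ := by simpa using re_le_norm (a + s * I : ℂ)
  have h2 : ‖(a + s * I : ℂ)‖ ^ 2 = a ^ 2 + s ^ 2 := by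
    rw [Complex.sq_norm, Complex.normSq_add_mul_I]
  rw [norm_inv, norm_pow, ← mul_inv]
  refine inv_anti₀ (by positivity) ?_
  rw [pow_add, pow_add, h2, mul_assoc]
  refine mul_le_mul (pow_le_pow_left₀ ha.le h1 n) (le_of_eq ?_) (by positivity) (by positivity)
  field_simp

/-- the Hankel integral -/
theorem hankel (n : ℕ) {a l : ℝ} (ha : 0 < a) (hl : 0 < l) :
    ∫ s : ℝ, exp (l * s * I) * ((a + s * I : ℂ) ^ (n + 2))⁻¹ =
      (2 * π * l ^ (n + 1) * Real.exp (-(a * l)) / (n + 1)! : ℝ) := by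
  set f : ℝ → ℂ := fun x => ((max x 0 : ℝ) : ℂ) ^ (n + 1) * exp (-a * (max x 0 : ℝ)) with hf
  have hfc : Continuous f := by fun_prop
  have hind : f = indicator (Ioi 0) fun x : ℝ => (x : ℂ) ^ (n + 1) * exp (-a * x) := by
    funext x
    by_cases hx : 0 < x
    · simp [hf, indicator, hx, max_eq_left hx.le]
    · simp [hf, indicator, hx, max_eq_right (not_lt.1 hx)]
  have hfi : Integrable f := by
    rw [hind, integrable_indicator_iff measurableSet_Ioi]
    exact integrableOn_pow_exp (n + 1) (c := a) (by simpa using ha)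
  have hF : 𝓕 f = fun ξ : ℝ => ((n + 1)! : ℂ) * ((a + ((2 * π * ξ : ℝ) : ℂ) * I) ^ (n + 2))⁻¹ := by
    funext ξ
    rw [Real.fourier_real_eq_integral_exp_smul, ← div_eq_mul_inv,
      ← laplace_pow (n + 1) (c := a + ((2 * π * ξ : ℝ) : ℂ) * I) (by simpa using ha),
      ← integral_indicator measurableSet_Ioi, hind]
    refine integral_congr_ae (Eventually.of_forall fun x => ?_)
    by_cases hx : 0 < x
    · simp only [indicator, mem_Ioi, hx, if_true, smul_eq_mul]
      rw [mul_left_comm, ← exp_add]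
      congr 2
      push_cast
      ring
    · simp [indicator, hx]
  have hFi : Integrable (𝓕 f) := by
    rw [hF]
    exact ((integrable_inv_pow n ha).comp_mul_left' Real.two_pi_pos.ne').const_mul _
  have h1 := hfi.fourierInv_fourier_eq hFi (hfc.continuousAt (x := l))
  rw [Real.fourierInv_eq', hF] at h1
  have h2 := Measure.integral_comp_mul_left
    (fun s : ℝ => exp (l * s * I) * ((a + s * I : ℂ) ^ (n + 2))⁻¹) (2 * π)
  have h3 : ∫ v : ℝ, exp (((2 * π * inner ℝ v l : ℝ) : ℂ) * I) •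
      (((n + 1)! : ℂ) * ((a + ((2 * π * v : ℝ) : ℂ) * I) ^ (n + 2))⁻¹) =
      ((n + 1)! : ℂ) * ∫ v : ℝ, exp (l * ((2 * π * v : ℝ) : ℂ) * I) *
        ((a + ((2 * π * v : ℝ) : ℂ) * I) ^ (n + 2))⁻¹ := by
    rw [← integral_const_mul]
    refine integral_congr_ae (Eventually.of_forall fun v => ?_)
    simp only [smul_eq_mul, RCLike.inner_apply, conj_trivial]
    rw [mul_left_comm]
    congr 3
    push_cast
    ring
  rw [h3, h2, abs_of_pos (inv_pos.2 Real.two_pi_pos), real_smul] at h1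
  simp only [hf, max_eq_left hl.le] at h1
  have hn : ((n + 1)! : ℂ) ≠ 0 := by exact_mod_cast (n + 1).factorial_ne_zero
  have hπ : (π : ℂ) ≠ 0 := by exact_mod_cast Real.pi_ne_zero
  push_cast at h1 ⊢
  rw [eq_div_iff hn]
  generalize (∫ s : ℝ, exp (l * s * I) * ((a + s * I : ℂ) ^ (n + 2))⁻¹) = J at h1 ⊢
  rw [neg_mul] at h1
  rw [mul_assoc (2 * π : ℂ), ← h1]
  field_simp

/-- Stirling, upper bound -/
theorem factorial_le {m : ℕ} (hm : 1 ≤ m) :
    (m ! : ℝ) ≤ Real.exp 1 * √m * (m / Real.exp 1) ^ m := by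
  obtain ⟨k, rfl⟩ := Nat.exists_eq_add_of_le' hm
  have h := Stirling.stirlingSeq'_antitone (Nat.zero_le k)
  simp only [Function.comp, Nat.succ_eq_add_one, zero_add, Stirling.stirlingSeq_one] at h
  rw [Stirling.stirlingSeq, div_le_iff₀ (by positivity), Real.sqrt_mul zero_le_two] at h
  refine h.trans (le_of_eq ?_)
  field_simp

end Crest.Agent.N250.Hk

end
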