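import Crest.Agent.N250.Hk.Prof
import Crest.Agent.N250.B2.Defs2

/-!
# Row 250 (helper11): the profile lemma in the form `B2.Ker`
-/

set_option autoImplicit false
open Complex

noncomputable section

namespace Crest.Agent.N250.Hk

/-- `Ker` for the profile `ph M`, together with the bridge from the far datum `η = 2 V X²` -/
theorem ker (p : ℕ) {C₀ : ℝ} (hC : 0 ≤ C₀) : ∃ M₀ : ℕ, 8 ≤ M₀ ∧ ∀ M, M₀ ≤ M →
    ∃ (Mj : ℝ → ℝ) (C : ℝ), B2.Ker (ph M) Mj p C ∧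
      ∀ u η z : ℂ, -1 ≤ u.re → 4 * M ≤ ‖η‖ → 0 < η.re →
        ‖η - 4 * log η - (8 * M - 4 * log (8 * M)) - 2 * u‖ ≤ 1 / √M →
        ‖z - η ^ (1 / 2 : ℂ) * (η ^ M)⁻¹‖ ≤ C₀ * (√‖η‖ * (‖η‖ ^ M)⁻¹) / M →
        ‖z - ph M u‖ ≤ Mj u.im := by
  obtain ⟨M₀, h8, h⟩ := profile p hC
  refine ⟨M₀, h8, fun M hM => ?_⟩
  obtain ⟨Mj, C, a1, -, a3, a4, a5, a6, a7, a8, a9⟩ := h M hM
  exact ⟨Mj, C, ⟨a5, a6, a1, a3, a4, a7, a8⟩, a9⟩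

theorem ker_mono {φ : ℂ → ℂ} {M : ℝ → ℝ} {p : ℕ} {C C' : ℝ} (h : B2.Ker φ M p C) (hC : C ≤ C') :
    B2.Ker φ M p C' :=
  ⟨h.cont, fun u hu => (h.dec u hu).trans (by gcongr), h.M_cont, h.M_nonneg,
    fun s => (h.M_le s).trans (by gcongr), h.pos0, h.pos⟩

end Crest.Agent.N250.Hk

end
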