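import Crest.Agent.N250.Hk.Int

/-!
# Row 250 (helper11): the profile lemma

`ph M u = √K (K + 2u)^{-M}`, `K = 8M`; `mj A M s = A / (1 + s²/(128 M))`.
-/

set_option autoImplicit false
open Set Filter Topology Complex MeasureTheory
open scoped Real Nat

noncomputable section

namespace Crest.Agent.N250.Hk

/-- the profile -/
def ph (M : ℕ) (u : ℂ) : ℂ := (√(8 * M) : ℝ) * ((8 * M + 2 * u) ^ M)⁻¹

/-- the majorant of the error -/
def mj (A : ℝ) (M : ℕ) (s : ℝ) : ℝ := A * (1 + s ^ 2 / (128 * M))⁻¹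

/-- the amplitude of the majorant -/
def amp (C₀ : ℝ) (M : ℕ) : ℝ :=
  Real.exp 8 * (2 * C₀ + 11) * (√(8 * M) * (((8 * M : ℝ)) ^ M)⁻¹) * (4 / √M)

theorem ph_val (n : ℕ) {d : ℝ} (hd : -1 ≤ d) :
    ∫ s : ℝ, exp ((s / 4 : ℝ) * I) * ph (n + 2) (d + s * I) =
      (√(8 * (n + 2 : ℕ)) * (2 ^ (n + 2))⁻¹ * (2 * π * (1 / 4) ^ (n + 1) *
        Real.exp (-((4 * (n + 2 : ℕ) + d) * (1 / 4))) / (n + 1)!) : ℝ) := by
  have ha : (0 : ℝ) < 4 * (n + 2 : ℕ) + d := by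
    push_cast
    linarith [(Nat.cast_nonneg n : (0 : ℝ) ≤ n)]
  rw [ofReal_mul, ← hankel n ha (l := 1 / 4) (by norm_num), ← integral_const_mul]
  refine integral_congr_ae (Eventually.of_forall fun s => ?_)
  have e : (8 * ((n + 2 : ℕ) : ℂ) + 2 * (d + s * I)) =
      2 * (((4 * (n + 2 : ℕ) + d : ℝ) : ℂ) + s * I) := by push_cast; ring
  have e2 : ((s / 4 : ℝ) : ℂ) * I = ((1 / 4 : ℝ) : ℂ) * s * I := by push_cast; ring
  simp only [ph, e, e2, mul_pow, mul_inv]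
  push_cast
  ring

theorem ph_pos {M : ℕ} (hM : 2 ≤ M) {d : ℝ} (hd : -1 ≤ d) :
    0 ≤ (∫ s : ℝ, exp ((s / 4 : ℝ) * I) * ph M (d + s * I)).re := by
  obtain ⟨n, rfl⟩ := Nat.exists_eq_add_of_le' hM
  rw [ph_val n hd, ofReal_re]
  positivity

theorem ph_low {M : ℕ} (hM : 2 ≤ M) : 8 * (√(8 * M) * (((8 * M : ℝ)) ^ M)⁻¹) * √M ≤
    (∫ s : ℝ, exp ((s / 4 : ℝ) * I) * ph M (s * I)).re := by
  obtain ⟨n, rfl⟩ := Nat.exists_eq_add_of_le' hM
  have h := ph_val n (d := 0) (by norm_num)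
  simp only [ofReal_zero, zero_add, add_zero] at h
  rw [h, ofReal_re]
  have h1 := factorial_le (m := n + 2) (by omega)
  rw [Nat.factorial_succ (n + 1), Nat.cast_mul] at h1
  set m : ℝ := ((n + 2 : ℕ) : ℝ) with hm
  have hm0 : 0 < m := by positivity
  have hf : (0 : ℝ) < (n + 1)! := by exact_mod_cast (n + 1).factorial_pos
  have hs : √m * √m = m := Real.mul_self_sqrt hm0.le
  have hs0 : 0 < √m := Real.sqrt_pos.2 hm0
  have he : Real.exp (-(4 * m * (1 / 4))) = (Real.exp 1 ^ (n + 2))⁻¹ := by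
    rw [← Real.exp_nat_mul, ← Real.exp_neg]
    congr 1
    ring
  have he0 := Real.exp_pos 1
  have h2 : √m * (n + 1)! * Real.exp 1 ^ (n + 2) ≤ π * m ^ (n + 2) := by
    rw [div_pow, ← mul_div_assoc, le_div_iff₀ (by positivity)] at h1
    have h3 : Real.exp 1 ≤ π := by linarith [Real.exp_one_lt_d9, Real.pi_gt_three]
    refine le_of_mul_le_mul_left ?_ hs0
    calc √m * (√m * (n + 1)! * Real.exp 1 ^ (n + 2)) = m * (n + 1)! * Real.exp 1 ^ (n + 2) := by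
          rw [← mul_assoc, ← mul_assoc, hs]
      _ ≤ Real.exp 1 * √m * m ^ (n + 2) := h1
      _ ≤ π * √m * m ^ (n + 2) := by gcongr
      _ = _ := by ring
  rw [he, mul_comm 8, mul_assoc, mul_assoc, mul_assoc]
  refine mul_le_mul_of_nonneg_left ?_ (Real.sqrt_nonneg _)
  have e8 : (8 * m) ^ (n + 2) = 2 ^ (n + 2) * (4 ^ (n + 1) * 4 * m ^ (n + 2)) := by
    rw [show (8 : ℝ) * m = 2 * (4 * m) by ring, mul_pow, mul_pow, pow_succ (4 : ℝ) (n + 1)]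
  rw [e8, mul_inv, mul_assoc]
  refine mul_le_mul_of_nonneg_left ?_ (by positivity)
  rw [inv_mul_eq_div, div_le_div_iff₀ (by positivity) hf, one_div, inv_pow]
  field_simp
  linarith

theorem mj_eq {M : ℕ} (hM : 0 < M) (A : ℝ) :
    mj A M = fun s => A * (1 + ((√(128 * M))⁻¹ * s) ^ 2)⁻¹ := by
  funext s
  rw [mj, mul_pow, inv_pow, Real.sq_sqrt (by positivity), inv_mul_eq_div]

theorem mj_integrable {M : ℕ} (hM : 0 < M) (A : ℝ) : Integrable (mj A M) := by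
  rw [mj_eq hM]
  exact (integrable_inv_one_add_sq.comp_mul_left' (by positivity)).const_mul A

theorem mj_integral {M : ℕ} (hM : 0 < M) (A : ℝ) : ∫ s, mj A M s = A * (√(128 * M) * π) := by
  rw [mj_eq hM, integral_const_mul,
    Measure.integral_comp_mul_left (fun x : ℝ => (1 + x ^ 2)⁻¹), integral_univ_inv_one_add_sq,
    inv_inv, abs_of_nonneg (Real.sqrt_nonneg _), smul_eq_mul]

theorem mj_continuous (A : ℝ) (M : ℕ) : Continuous (mj A M) :=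
  continuous_const.mul (Continuous.inv₀ (by fun_prop) fun s => by positivity)

theorem mj_nonneg {A : ℝ} (hA : 0 ≤ A) (M : ℕ) (s : ℝ) : 0 ≤ mj A M s := by
  unfold mj
  positivity

theorem mj_le {A : ℝ} (hA : 0 ≤ A) {M : ℕ} (hM : 0 < M) (s : ℝ) :
    mj A M s ≤ A * (256 * M) / (1 + |s|) ^ 2 := by
  have hM' : (1 : ℝ) ≤ M := by exact_mod_cast hM
  rw [mj, mul_div_assoc]
  refine mul_le_mul_of_nonneg_left ?_ hA
  rw [inv_eq_one_div, div_le_div_iff₀ (by positivity) (by positivity), ← sq_abs s]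
  have : 256 * (M : ℝ) * (1 + |s| ^ 2 / (128 * M)) = 256 * M + 2 * |s| ^ 2 := by
    field_simp
    ring
  rw [this]
  nlinarith [sq_nonneg (|s| - 1)]

theorem normSq_w (K : ℝ) (u : ℂ) : ‖(K + 2 * u : ℂ)‖ ^ 2 = K ^ 2 + 4 * K * u.re + 4 * ‖u‖ ^ 2 := by
  rw [Complex.sq_norm, Complex.sq_norm, normSq_apply, normSq_apply]
  simp
  ring

theorem norm_w_ge {M : ℕ} (hM : 1 ≤ M) {u : ℂ} (hu : -1 ≤ u.re) :
    1 + ‖u‖ ≤ ‖(8 * M + 2 * u : ℂ)‖ := by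
  have hM' : (1 : ℝ) ≤ M := by exact_mod_cast hM
  have h := normSq_w (8 * M) u
  push_cast at h
  refine abs_le_of_sq_le_sq' ?_ (norm_nonneg _) |>.2
  rw [h]
  nlinarith [sq_nonneg (‖u‖ - 1), mul_le_mul_of_nonneg_left hu (show (0 : ℝ) ≤ 32 * M by positivity)]

theorem ph_le {M : ℕ} (hM : 2 ≤ M) {u : ℂ} (hu : -1 ≤ u.re) :
    ‖ph M u‖ ≤ √(8 * M) / (1 + ‖u‖) ^ 2 := by
  have h := norm_w_ge (M := M) (by omega) hu
  have h1 : 1 ≤ 1 + ‖u‖ := by linarith [norm_nonneg u]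
  rw [ph, norm_mul, norm_inv, norm_pow, Complex.norm_real, Real.norm_of_nonneg (Real.sqrt_nonneg _),
    div_eq_mul_inv]
  refine mul_le_mul_of_nonneg_left (inv_anti₀ (by positivity) ?_) (Real.sqrt_nonneg _)
  exact (pow_le_pow_left₀ (by positivity) h 2).trans (pow_le_pow_right₀ (h1.trans h) hM)

theorem ph_contOn {M : ℕ} (hM : 1 ≤ M) : ContinuousOn (ph M) {u | -1 ≤ u.re} := by
  refine continuousOn_const.mul (ContinuousOn.inv₀ (by fun_prop) fun u hu => pow_ne_zero _ ?_)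
  refine norm_pos_iff.1 (lt_of_lt_of_le ?_ (norm_w_ge hM hu))
  positivity

theorem ph_diffOn {M : ℕ} (hM : 1 ≤ M) : DifferentiableOn ℂ (ph M) {u | -1 ≤ u.re} := by
  refine DifferentiableOn.const_mul
    (DifferentiableOn.inv (by fun_prop) fun u hu => pow_ne_zero _ ?_) _
  refine norm_pos_iff.1 (lt_of_lt_of_le ?_ (norm_w_ge hM hu))
  positivity

theorem norm_log_sub_le {K : ℝ} (hK : 0 < K) {η : ℂ} (h1 : K / 2 ≤ ‖η‖) (h2 : 0 < η.re) :
    ‖log η - log K‖ ≤ 3 / K * ‖η - K‖ := by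
  have hs : ∀ p ∈ segment ℝ (K : ℂ) η, 0 < p.re ∧ K / 3 ≤ ‖p‖ := by
    rintro p ⟨a, b, ha, hb, hab, rfl⟩
    have e1 : (a • (K : ℂ) + b • η).re = a * K + b * η.re := by simp
    refine ⟨?_, abs_le_of_sq_le_sq' ?_ (norm_nonneg _) |>.2⟩
    · rw [e1]
      rcases ha.eq_or_lt with rfl | ha'
      · rw [zero_add] at hab
        simpa [hab] using h2
      · positivity
    · have e2 : ‖a • (K : ℂ) + b • η‖ ^ 2 = (a * K) ^ 2 + 2 * (a * K) * (b * η.re) +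
          b ^ 2 * ‖η‖ ^ 2 := by
        rw [Complex.sq_norm, Complex.sq_norm, normSq_apply, normSq_apply]
        simp
        ring
      have e3 : (K / 2) ^ 2 ≤ ‖η‖ ^ 2 := pow_le_pow_left₀ (by positivity) h1 2
      have e4 : 0 ≤ 2 * (a * K) * (b * η.re) := by positivity
      have e5 := mul_le_mul_of_nonneg_left e3 (sq_nonneg b)
      have e6 : 1 / 9 ≤ a ^ 2 + b ^ 2 / 4 := by nlinarith [sq_nonneg (a - 1 / 5)]
      have e7 := mul_le_mul_of_nonneg_left e6 (sq_nonneg K)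
      rw [e2]
      nlinarith
  refine Convex.norm_image_sub_le_of_norm_hasDerivWithin_le (f := log) (f' := fun p => p⁻¹)
    (fun p hp => (hasDerivAt_log (Or.inl (hs p hp).1)).hasDerivWithinAt) (fun p hp => ?_)
    (convex_segment _ _) (left_mem_segment _ _ _) (right_mem_segment _ _ _)
  rw [norm_inv, ← inv_div]
  exact inv_anti₀ (by positivity) (hs p hp).2

theorem norm_pow_sub_le {a b : ℂ} {t : ℝ} (ha : ‖a‖ ≤ t) (hb : ‖b‖ ≤ t) (n : ℕ) :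
    ‖a ^ n - b ^ n‖ * t ≤ n * ‖a - b‖ * t ^ n := by
  have ht : 0 ≤ t := (norm_nonneg _).trans ha
  induction n with
  | zero => simp
  | succ n ih =>
    have e : a ^ (n + 1) - b ^ (n + 1) = a * (a ^ n - b ^ n) + (a - b) * b ^ n := by ring
    have h1 : ‖a ^ (n + 1) - b ^ (n + 1)‖ ≤ t * ‖a ^ n - b ^ n‖ + ‖a - b‖ * t ^ n := by
      rw [e]
      refine (norm_add_le _ _).trans (add_le_add ?_ ?_)
      · rw [norm_mul]; gcongr
      · rw [norm_mul, norm_pow]; gcongr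
    have h2 := mul_le_mul_of_nonneg_right h1 ht
    have h3 := mul_le_mul_of_nonneg_left ih ht
    push_cast
    rw [pow_succ t n]
    linarith

theorem norm_sqrt_sub_le {K : ℝ} (hK : 0 < K) (η : ℂ) :
    ‖η ^ (1 / 2 : ℂ) - (√K : ℝ)‖ ≤ ‖η - K‖ / √K := by
  have hs := Real.sqrt_pos.2 hK
  have h1 : (η ^ (1 / 2 : ℂ)) ^ 2 = η := by
    rw [one_div]
    exact_mod_cast cpow_nat_inv_pow η two_ne_zero
  have h2 : 0 ≤ (η ^ (1 / 2 : ℂ)).re := by
    rw [one_div, cpow_inv_two_re]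
    exact Real.sqrt_nonneg _
  have h3 : √K ≤ ‖η ^ (1 / 2 : ℂ) + (√K : ℝ)‖ := by
    refine le_trans ?_ (re_le_norm _)
    simpa using h2
  have h4 : (η ^ (1 / 2 : ℂ) - (√K : ℝ)) * (η ^ (1 / 2 : ℂ) + (√K : ℝ)) = η - K := by
    have : ((√K : ℝ) : ℂ) ^ 2 = K := by exact_mod_cast Real.sq_sqrt hK.le
    linear_combination h1 - this
  rw [le_div_iff₀ hs, ← h4, norm_mul]
  exact mul_le_mul_of_nonneg_left h3 (norm_nonneg _)

theorem exp_le_one_sub_pow {M : ℕ} (hM : 8 ≤ M) : Real.exp (-8) ≤ (1 - 30 / (8 * M : ℝ)) ^ M := by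
  have hM' : (8 : ℝ) ≤ M := by exact_mod_cast hM
  set t : ℝ := 30 / (8 * M) with ht
  have h0 : 0 ≤ t := by positivity
  have h1 : t ≤ 1 / 2 := by rw [ht, div_le_iff₀ (by positivity)]; linarith
  have h2 : Real.exp (-(2 * t)) ≤ 1 - t := by
    rw [Real.exp_neg, inv_le_comm₀ (Real.exp_pos _) (by linarith)]
    refine le_trans ?_ (Real.add_one_le_exp _)
    rw [inv_le_iff_one_le_mul₀ (by linarith)]
    nlinarith
  refine le_trans ?_ (pow_le_pow_left₀ (Real.exp_pos _).le h2 M)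
  rw [← Real.exp_nat_mul]
  refine Real.exp_le_exp.2 ?_
  have : (M : ℝ) * -(2 * t) = -(15 / 2) := by rw [ht]; field_simp; ring
  linarith

theorem decay {M : ℕ} (hM : 8 ≤ M) {x σ : ℝ} (hσ : σ ^ 2 ≤ x ^ 2) :
    (2 / √M + x) * (√(1 + x ^ 2) ^ M)⁻¹ ≤ 4 / √M * (1 + M * σ ^ 2 / 8)⁻¹ := by
  have hM' : (8 : ℝ) ≤ M := by exact_mod_cast hM
  have hr : 0 < √(M : ℝ) := Real.sqrt_pos.2 (by linarith)
  have hr2 : √(M : ℝ) ^ 2 = M := Real.sq_sqrt (by linarith)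
  have hk : (M : ℝ) / 8 ≤ (M / 4 : ℕ) := by
    have : M ≤ 8 * (M / 4) := by omega
    have : (M : ℝ) ≤ 8 * (M / 4 : ℕ) := by exact_mod_cast this
    linarith
  have hq : 1 ≤ √(1 + x ^ 2) := Real.one_le_sqrt.2 (by nlinarith)
  have h1 : 1 + M * x ^ 2 / 8 ≤ (1 + x ^ 2) ^ (M / 4) := by
    refine le_trans ?_ (one_add_mul_le_pow (by nlinarith) _)
    nlinarith [mul_le_mul_of_nonneg_right hk (sq_nonneg x)]
  have h2 : (1 + M * x ^ 2 / 8) * (1 + M * σ ^ 2 / 8) ≤ √(1 + x ^ 2) ^ M := by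
    calc _ ≤ (1 + x ^ 2) ^ (M / 4) * (1 + x ^ 2) ^ (M / 4) := by
          refine mul_le_mul h1 (le_trans ?_ h1) (by positivity) (by positivity)
          gcongr
      _ = √(1 + x ^ 2) ^ (4 * (M / 4)) := by
          rw [← pow_add, show 4 * (M / 4) = 2 * (M / 4 + M / 4) by ring, pow_mul,
            Real.sq_sqrt (by positivity)]
      _ ≤ _ := pow_le_pow_right₀ hq (by omega)
  have h3 : 2 / √M + x ≤ 4 / √M * (1 + M * x ^ 2 / 8) := by
    rw [div_add' _ _ _ hr.ne', div_mul_eq_mul_div]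
    refine div_le_div_of_nonneg_right ?_ hr.le
    nlinarith [sq_nonneg (x * √M - 1)]
  calc _ ≤ (4 / √M * (1 + M * x ^ 2 / 8)) * ((1 + M * x ^ 2 / 8) * (1 + M * σ ^ 2 / 8))⁻¹ := by
        gcongr
    _ = _ := by field_simp

set_option maxHeartbeats 1000000 in
/-- the bridge from the far datum `η` to the profile variable `u` -/
theorem bridge {M : ℕ} (hM : 8 ≤ M) {C₀ : ℝ} (hC : 0 ≤ C₀) {u η z : ℂ} (hu : -1 ≤ u.re)
    (h1 : 4 * M ≤ ‖η‖) (h2 : 0 < η.re)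
    (hP : ‖η - 4 * log η - (8 * M - 4 * log (8 * M)) - 2 * u‖ ≤ 1 / √M)
    (hz : ‖z - η ^ (1 / 2 : ℂ) * (η ^ M)⁻¹‖ ≤ C₀ * (√‖η‖ * (‖η‖ ^ M)⁻¹) / M) :
    ‖z - ph M u‖ ≤ mj (amp C₀ M) M u.im := by
  have hM' : (8 : ℝ) ≤ M := by exact_mod_cast hM
  set K : ℝ := 8 * M with hK
  have hK0 : 0 < K := by positivity
  have hK64 : 64 ≤ K := by linarith
  have hKc : (8 * M : ℂ) = K := by rw [hK]; push_cast; ring
  have hr : 0 < √(M : ℝ) := Real.sqrt_pos.2 (by linarith)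
  have hr1 : 1 ≤ √(M : ℝ) := Real.one_le_sqrt.2 (by linarith)
  have hr2 : √(M : ℝ) * √(M : ℝ) = M := Real.mul_self_sqrt (by linarith)
  have hs : 0 < √K := Real.sqrt_pos.2 hK0
  have hs2 : √K * √K = K := Real.mul_self_sqrt hK0.le
  rw [hKc] at hP
  set th : ℝ := 1 / √M with hth
  have hth0 : 0 < th := by positivity
  have hth1 : th ≤ 1 := by rw [hth, div_le_one hr]; exact hr1
  have hMth : 1 / (M : ℝ) ≤ th := by
    rw [hth]; exact one_div_le_one_div_of_le hr (by nlinarith)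
  set x : ℝ := 2 * ‖u‖ / K with hx
  have hx0 : 0 ≤ x := by positivity
  have hxK : 2 * ‖u‖ = K * x := by rw [hx]; field_simp
  set q : ℝ := √(1 + x ^ 2) with hq
  have hq2 : q ^ 2 = 1 + x ^ 2 := Real.sq_sqrt (by positivity)
  have hq1 : 1 ≤ q := Real.one_le_sqrt.2 (by nlinarith)
  have hqx : x ≤ q := Real.le_sqrt_of_sq_le (by linarith)
  have hqx' : q ≤ 1 + x := Real.sqrt_le_iff.2 ⟨by positivity, by nlinarith⟩
  set w : ℂ := K + 2 * u with hw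
  have a1 : ‖η - K‖ ≤ K * x + ‖η - w‖ := by
    have : η - K = 2 * u + (η - w) := by rw [hw]; ring
    rw [this, ← hxK]
    refine (norm_add_le _ _).trans (le_of_eq ?_)
    simp
  have a2 : ‖η - w‖ ≤ 24 * x + 2 * th := by
    have e : η - w = (η - 4 * log η - (K - 4 * log K) - 2 * u) + 4 * (log η - log K) := by
      rw [hw]; ring
    have b1 := norm_log_sub_le hK0 (η := η) (by linarith) h2
    have b2 : ‖η - w‖ ≤ th + 4 * (3 / K * (K * x + ‖η - w‖)) := by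
      refine (le_of_eq (congrArg norm e)).trans ((norm_add_le _ _).trans (add_le_add hP ?_))
      rw [norm_mul, Complex.norm_ofNat]
      exact mul_le_mul_of_nonneg_left (b1.trans (by gcongr)) (by norm_num)
    have b3 : 3 / K * (K * x + ‖η - w‖) = 3 * x + 3 / K * ‖η - w‖ := by field_simp
    have b4 : 3 / K ≤ 1 / 8 := by rw [div_le_div_iff₀ hK0 (by norm_num)]; linarith
    have b5 := mul_le_mul_of_nonneg_right b4 (norm_nonneg (η - w))
    linarith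
  have a3 : ‖η - w‖ ≤ 26 * q := by linarith
  have a4 : q * (K - 4) ≤ ‖w‖ := by
    refine abs_le_of_sq_le_sq' ?_ (norm_nonneg _) |>.2
    rw [hw, normSq_w, mul_pow, hq2, show 4 * ‖u‖ ^ 2 = (2 * ‖u‖) ^ 2 by ring, hxK]
    linarith [mul_le_mul_of_nonneg_left hu hK0.le,
      mul_nonneg (sq_nonneg x) (show 0 ≤ K - 2 by linarith)]
  have a5 : ‖w‖ ≤ K * (1 + x) := by
    refine (norm_add_le _ _).trans (le_of_eq ?_)
    rw [norm_mul, Complex.norm_ofNat, Complex.norm_real, Real.norm_of_nonneg hK0.le, hxK]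
    ring
  set ρ : ℝ := q * (K - 30) with hρ
  have hρ0 : K - 30 ≤ ρ := le_mul_of_one_le_left (by linarith) hq1
  have hρp : 0 < ρ := by linarith
  have a6 : ρ ≤ ‖w‖ := by rw [hρ]; linarith
  have a7 : ρ ≤ ‖η‖ := by
    have := norm_sub_norm_le w η
    rw [norm_sub_rev] at this
    rw [hρ]
    linarith
  have a8 : √‖η‖ ≤ 2 * √K * (1 + x) := by
    refine Real.sqrt_le_iff.2 ⟨by positivity, ?_⟩
    have := norm_sub_norm_le η w
    have e : (2 * √K * (1 + x)) ^ 2 = 4 * K * (1 + x) ^ 2 := by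
      rw [mul_pow, mul_pow, Real.sq_sqrt hK0.le]; ring
    rw [e]
    have b1 : 26 * q ≤ K * (1 + x) := mul_le_mul (by linarith) hqx' (by linarith) hK0.le
    have b2 : K * (1 + x) ≤ K * (1 + x) ^ 2 :=
      mul_le_mul_of_nonneg_left (le_self_pow₀ (by linarith) two_ne_zero) hK0.le
    have b3 : 0 ≤ K * (1 + x) ^ 2 := by positivity
    linarith
  set t : ℝ := (ρ ^ M)⁻¹ with ht
  have ht0 : 0 ≤ t := by positivity
  have c0 : (‖η‖ ^ M)⁻¹ ≤ t := inv_anti₀ (by positivity) (pow_le_pow_left₀ hρp.le a7 M)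
  have c1 : ‖z - η ^ (1 / 2 : ℂ) * (η ^ M)⁻¹‖ ≤ √K * t * (2 * C₀ * (th + x)) := by
    refine hz.trans ?_
    calc C₀ * (√‖η‖ * (‖η‖ ^ M)⁻¹) / M ≤ C₀ * (2 * √K * (1 + x) * t) / M := by gcongr
      _ = √K * t * (2 * C₀ * (1 / M + x * (1 / M))) := by ring
      _ ≤ _ := by
        gcongr
        exact mul_le_of_le_one_right hx0 (hMth.trans hth1)
  have c2 : ‖η ^ (1 / 2 : ℂ) * (η ^ M)⁻¹ - (√K : ℝ) * (η ^ M)⁻¹‖ ≤ √K * t * (5 * (th + x)) := by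
    rw [← sub_mul, norm_mul, norm_inv, norm_pow]
    have b1 : ‖η - K‖ / √K ≤ √K * (5 * (th + x)) := by
      rw [div_le_iff₀ hs, mul_right_comm, hs2]
      linarith [mul_nonneg (show 0 ≤ K - 64 by linarith) hx0,
        mul_nonneg (show 0 ≤ K - 64 by linarith) hth0.le]
    calc _ ≤ √K * (5 * (th + x)) * t :=
          mul_le_mul ((norm_sqrt_sub_le hK0 η).trans b1) c0 (by positivity) (by positivity)
      _ = _ := by ring
  have c3 : ‖(√K : ℝ) * (η ^ M)⁻¹ - (√K : ℝ) * (w ^ M)⁻¹‖ ≤ √K * t * (6 * (th + x)) := by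
    rw [← mul_sub, norm_mul, Complex.norm_real, Real.norm_of_nonneg hs.le, mul_assoc, ← inv_pow,
      ← inv_pow]
    refine mul_le_mul_of_nonneg_left ?_ hs.le
    have hη0 : η ≠ 0 := norm_pos_iff.1 (hρp.trans_le a7)
    have hw0 : w ≠ 0 := norm_pos_iff.1 (hρp.trans_le a6)
    have i1 : ‖η⁻¹‖ ≤ ρ⁻¹ := by rw [norm_inv]; exact inv_anti₀ hρp a7
    have i2 : ‖w⁻¹‖ ≤ ρ⁻¹ := by rw [norm_inv]; exact inv_anti₀ hρp a6
    have b1 := norm_pow_sub_le i1 i2 M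
    have b2 : ‖η⁻¹ - w⁻¹‖ ≤ (24 * x + 2 * th) * ρ⁻¹ * ρ⁻¹ := by
      have : η⁻¹ - w⁻¹ = -(η - w) * η⁻¹ * w⁻¹ := by field_simp; ring
      rw [this, norm_mul, norm_mul, norm_neg]
      gcongr
    have b3 : (M : ℝ) * ρ⁻¹ ≤ 1 / 4 := by
      rw [← div_eq_mul_inv, div_le_div_iff₀ hρp (by norm_num)]
      linarith
    rw [inv_pow ρ, ← ht] at b1
    refine le_of_mul_le_mul_right (b1.trans ?_) (inv_pos.2 hρp)
    calc _ ≤ M * ((24 * x + 2 * th) * ρ⁻¹ * ρ⁻¹) * t := by gcongr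
      _ = (M * ρ⁻¹) * (24 * x + 2 * th) * t * ρ⁻¹ := by ring
      _ ≤ (1 / 4) * (24 * x + 24 * th) * t * ρ⁻¹ := by gcongr; norm_num
      _ = _ := by ring
  have c4 : ‖z - ph M u‖ ≤ √K * t * ((2 * C₀ + 11) * (th + x)) := by
    have e : ph M u = (√K : ℝ) * (w ^ M)⁻¹ := by rw [ph, hKc]
    rw [e]
    have d1 := norm_sub_le_norm_sub_add_norm_sub z (η ^ (1 / 2 : ℂ) * (η ^ M)⁻¹)
      ((√K : ℝ) * (w ^ M)⁻¹)
    have d2 := norm_sub_le_norm_sub_add_norm_sub (η ^ (1 / 2 : ℂ) * (η ^ M)⁻¹)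
      ((√K : ℝ) * (η ^ M)⁻¹) ((√K : ℝ) * (w ^ M)⁻¹)
    linarith
  have c5 : t ≤ Real.exp 8 * (K ^ M)⁻¹ * (q ^ M)⁻¹ := by
    have e : ρ = (1 - 30 / K) * K * q := by rw [hρ]; field_simp
    rw [ht, e, mul_pow, mul_pow, mul_inv, mul_inv]
    gcongr
    rw [inv_le_comm₀ ((Real.exp_pos _).trans_le (exp_le_one_sub_pow hM)) (Real.exp_pos _),
      ← Real.exp_neg]
    exact exp_le_one_sub_pow hM
  have c6 := decay hM (x := x) (σ := 2 * u.im / K) (by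
    rw [hx, div_pow, div_pow, mul_pow 2 u.im, mul_pow 2 ‖u‖, ← sq_abs u.im]
    gcongr
    exact abs_im_le_norm u)
  have e1 : (M : ℝ) * (2 * u.im / K) ^ 2 / 8 = u.im ^ 2 / (128 * M) := by
    rw [hK]; field_simp; ring
  rw [e1] at c6
  have c7 : th + x ≤ 2 / √M + x := by rw [hth]; gcongr; norm_num
  calc _ ≤ √K * (Real.exp 8 * (K ^ M)⁻¹ * (q ^ M)⁻¹) * ((2 * C₀ + 11) * (2 / √M + x)) :=
        c4.trans (by gcongr)
    _ = Real.exp 8 * (2 * C₀ + 11) * (√K * (K ^ M)⁻¹) * ((2 / √M + x) * (q ^ M)⁻¹) := by ring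
    _ ≤ Real.exp 8 * (2 * C₀ + 11) * (√K * (K ^ M)⁻¹) *
        (4 / √M * (1 + u.im ^ 2 / (128 * M))⁻¹) := by gcongr
    _ = _ := by rw [mj, amp]; ring

theorem amp_nonneg {C₀ : ℝ} (hC : 0 ≤ C₀) (M : ℕ) : 0 ≤ amp C₀ M := by
  unfold amp
  positivity

/-- the main term beats `p` times the integrated error -/
theorem pos_gap (p : ℝ) {C₀ : ℝ} (hC : 0 ≤ C₀) : ∃ M₀ : ℕ, 8 ≤ M₀ ∧ ∀ M, M₀ ≤ M →
    p * ∫ s, mj (amp C₀ M) M s < (∫ s : ℝ, exp ((s / 4 : ℝ) * I) * ph M (s * I)).re := by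
  set B : ℝ := |p| * (Real.exp 8 * (2 * C₀ + 11)) * (6 * π) with hB
  have hB0 : 0 ≤ B := by positivity
  obtain ⟨m, hm⟩ := exists_nat_gt (B ^ 2)
  refine ⟨m + 8, by omega, fun M hM => lt_of_lt_of_le ?_ (ph_low (by omega))⟩
  have hM' : (m : ℝ) + 8 ≤ M := by exact_mod_cast hM
  have hm0 : (0 : ℝ) ≤ m := Nat.cast_nonneg m
  have hr : B < √M := Real.lt_sqrt_of_sq_lt (by linarith)
  have hr0 : 0 < √(M : ℝ) := hB0.trans_lt hr
  have h1 : √(128 * M) ≤ 12 * √(M : ℝ) := by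
    refine Real.sqrt_le_iff.2 ⟨by positivity, ?_⟩
    rw [mul_pow, Real.sq_sqrt (by linarith)]
    linarith
  have hT : 0 < √(8 * M) * (((8 * M : ℝ)) ^ M)⁻¹ := by
    have : (0 : ℝ) < M := by linarith
    positivity
  rw [mj_integral (by omega)]
  have hA := amp_nonneg hC M
  calc p * (amp C₀ M * (√(128 * M) * π)) ≤ |p| * (amp C₀ M * (12 * √M * π)) :=
        mul_le_mul (le_abs_self p) (by gcongr) (by positivity) (abs_nonneg p)
    _ = 8 * (√(8 * M) * (((8 * M : ℝ)) ^ M)⁻¹) * B := by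
        rw [amp, hB]
        field_simp
        ring
    _ < _ := by gcongr

/-- **Profile lemma.** -/
theorem profile (p : ℝ) {C₀ : ℝ} (hC : 0 ≤ C₀) : ∃ M₀ : ℕ, 8 ≤ M₀ ∧ ∀ M, M₀ ≤ M →
    ∃ (Mj : ℝ → ℝ) (C : ℝ), Continuous Mj ∧ Integrable Mj ∧ (∀ s, 0 ≤ Mj s) ∧
      (∀ s, Mj s ≤ C / (1 + |s|) ^ 2) ∧ ContinuousOn (ph M) {u | -1 ≤ u.re} ∧
      (∀ u : ℂ, -1 ≤ u.re → ‖ph M u‖ ≤ C / (1 + ‖u‖) ^ 2) ∧
      (∀ d : ℝ, 0 ≤ d → 0 ≤ (∫ s : ℝ, exp ((s / 4 : ℝ) * I) * ph M (d + s * I)).re) ∧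
      p * ∫ s, Mj s < (∫ s : ℝ, exp ((s / 4 : ℝ) * I) * ph M (s * I)).re ∧
      ∀ u η z : ℂ, -1 ≤ u.re → 4 * M ≤ ‖η‖ → 0 < η.re →
        ‖η - 4 * log η - (8 * M - 4 * log (8 * M)) - 2 * u‖ ≤ 1 / √M →
        ‖z - η ^ (1 / 2 : ℂ) * (η ^ M)⁻¹‖ ≤ C₀ * (√‖η‖ * (‖η‖ ^ M)⁻¹) / M →
        ‖z - ph M u‖ ≤ Mj u.im := by
  obtain ⟨M₀, h8, h⟩ := pos_gap p hC
  refine ⟨M₀, h8, fun M hM => ?_⟩
  have hA := amp_nonneg hC M
  have hM8 : 8 ≤ M := h8.trans hM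
  refine ⟨mj (amp C₀ M) M, amp C₀ M * (256 * M) + √(8 * M), mj_continuous _ _,
    mj_integrable (by omega) _, mj_nonneg hA M, fun s => (mj_le hA (by omega) s).trans ?_,
    ph_contOn (by omega), fun u hu => (ph_le (by omega) hu).trans ?_,
    fun d hd => ph_pos (by omega) (by linarith), h M hM,
    fun u η z a b c d e => bridge hM8 hC a b c d e⟩
  · gcongr
    exact le_add_of_nonneg_right (Real.sqrt_nonneg _)
  · gcongr
    exact le_add_of_nonneg_left (by positivity)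

end Crest.Agent.N250.Hk

end
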