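import Crest.Agent.N250.Hk.Ker
import Crest.Agent.N250.Gi.Defs
import Crest.Agent.N250.HJ.Main
import Crest.Agent.N250.B1.Reg

/-!
# Row 250 (helper11): tip algebra, the bounds `crude0`, `crude`, `sharp` for the normalised residual
-/

set_option autoImplicit false
set_option linter.unusedSectionVars false
open Set Filter Topology Complex
open scoped Real

noncomputable section

namespace Crest.Agent.N250.Hk

open B1 Gi

/-- the normalised Hamilton–Jacobi residual: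
`e^{TL/4} (-2π R) / TL'(X) = (-π κ e^{c0/4}) * m0` -/
def m0 (N : ℕ) (X : ℝ) (V : ℂ) : ℂ :=
  HJ.R N X V * (Real.exp (X ^ 2 / 4) * X ^ 3 / (HJ.kap N * (X ^ 2 + 4)) : ℝ)

/-- `η = 2 V X²` -/
def eta (X : ℝ) (p : ℂ) : ℂ := 2 * et p X * X ^ 2

theorem norm_log_le {ζ : ℂ} (h : 0 ≤ ζ.re) : ‖log ζ‖ ≤ |Real.log ‖ζ‖| + 2 := by
  refine (norm_le_abs_re_add_abs_im _).trans ?_
  rw [log_re, log_im]
  linarith [abs_arg_le_pi_div_two_iff.2 h, Real.pi_lt_four]

theorem split_norm {x : ℂ} {A B : ℝ} (hA : 0 ≤ A) (hB : 0 < B) (h : ‖x‖ ≤ A + B) :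
    ∃ y : ℂ, ‖y‖ ≤ A ∧ ‖x - y‖ ≤ B := by
  have h0 : 0 < A + B := by positivity
  refine ⟨(A / (A + B) : ℝ) * x, ?_, ?_⟩
  · rw [norm_mul, Complex.norm_real, Real.norm_of_nonneg (by positivity), div_mul_eq_mul_div,
      div_le_iff₀ h0]
    gcongr
  · have : x - (A / (A + B) : ℝ) * x = (B / (A + B) : ℝ) * x := by
      have : ((A : ℂ) + B) ≠ 0 := by exact_mod_cast h0.ne'
      push_cast
      field_simp
      ring
    rw [this, norm_mul, Complex.norm_real, Real.norm_of_nonneg (by positivity), div_mul_eq_mul_div,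
      div_le_iff₀ h0]
    gcongr

section

variable {N : ℕ} {X : ℝ} {p : ℂ} (h : Rg.Pt (KK N) X p X)
include h

theorem norm_eta : ‖eta X p‖ = 2 * ‖et p X‖ * X ^ 2 := by
  simp [eta, abs_of_pos h.X_pos]

theorem eta_re : 0 < (eta X p).re := by
  have e : eta X p = ((2 * X ^ 2 : ℝ) : ℂ) * et p X := by unfold eta; push_cast; ring
  rw [e, re_ofReal_mul]
  have := h.X_pos
  have := h.re_pos
  positivity

theorem eta_ge : 7 * ((N : ℝ) + 1) ≤ ‖eta X p‖ := by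
  have h1 := h.k_le_rho.trans (h.rho_le.trans (re_le_norm _))
  have hX := h.X_pos
  rw [div_le_iff₀ (by positivity), KK] at h1
  rw [norm_eta h]
  linarith

theorem one_le_eta : 7 ≤ ‖eta X p‖ := by
  linarith [eta_ge h, (Nat.cast_nonneg N : (0 : ℝ) ≤ N)]

theorem ww_eq : HJ.ww X (et p X) = (eta X p)⁻¹ := by simp [HJ.ww, eta]

theorem hj_adm : HJ.Adm N X (et p X) := by
  refine ⟨by exact_mod_cast h.X_pos.ne', h.re_pos, h.norm_le.trans (by norm_num), ?_⟩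
  rw [ww_eq h, norm_inv, one_div]
  exact inv_anti₀ (by positivity) (eta_ge h)

theorem one_le_ell : 1 ≤ Real.log (X ^ 2) := by
  rw [Real.le_log_iff_exp_le (by have := h.X_pos; positivity)]
  nlinarith [Real.exp_one_lt_d9, h.x2]

theorem lam_le : ‖Lam X p‖ ≤ 4 * Real.log (X ^ 2) := by
  have h1 := one_le_ell h
  have hX := h.X_pos
  have h2 : |Real.log ‖et p X‖| ≤ Real.log (X ^ 2) := by
    rw [abs_le, ← Real.log_inv]
    refine ⟨Real.log_le_log (by positivity) ?_, Real.log_le_log h.norm_pos ?_⟩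
    · have := one_le_eta h
      rw [norm_eta h] at this
      rw [inv_le_iff_one_le_mul₀ (by positivity)]
      linarith
    · nlinarith [h.norm_le, h.x2]
  refine (norm_sub_le _ _).trans ?_
  rw [Complex.norm_real, Real.norm_of_nonneg (by linarith)]
  linarith [norm_log_le h.re_pos.le]

theorem log_half_eta : log (eta X p / 2) = Real.log (X ^ 2) + log (et p X) := by
  rw [← log_ofReal_mul (by have := h.X_pos; positivity) (norm_pos_iff.1 h.norm_pos)]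
  congr 1
  unfold eta
  push_cast
  ring

theorem log_eta : log (eta X p) = Real.log 2 + log (eta X p / 2) := by
  have h0 : eta X p / 2 ≠ 0 :=
    div_ne_zero (norm_pos_iff.1 (by linarith [one_le_eta h])) two_ne_zero
  rw [← log_ofReal_mul two_pos h0]
  congr 1
  push_cast
  ring

theorem sqrt_eta : eta X p ^ (1 / 2 : ℂ) = HJ.rr (et p X) * X := by
  refine HJ.sqrt_eq (by rw [mul_pow, HJ.rr_sq, eta]) ?_
  rw [re_mul_ofReal]
  have h1 := HJ.norm_rr_le h.re_pos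
  have h2 := norm_pos_iff.2 (HJ.rr_ne (norm_pos_iff.1 h.norm_pos))
  exact mul_pos (by linarith) h.X_pos

theorem norm_sqrt_eta : ‖eta X p ^ (1 / 2 : ℂ)‖ = √‖eta X p‖ := by
  rw [← HJ.sqrt_sq (eta X p), norm_pow, Real.sqrt_sq (norm_nonneg _), HJ.sqrt_sq]

/-- `m0 = e^{-V/2} X²/(X²+4) Z`, `Z` close to `η^{1/2 - M}` -/
theorem m0_eq (hN : HJ.N0 ≤ N) : ∃ Z : ℂ,
    m0 N X (et p X) = exp (-et p X / 2) * (X ^ 2 / (X ^ 2 + 4) : ℝ) * Z ∧
    ‖Z - eta X p ^ (1 / 2 : ℂ) * (eta X p ^ (N + 1))⁻¹‖ ≤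
      3500 * (√‖eta X p‖ * (‖eta X p‖ ^ (N + 1))⁻¹) / (N + 1 : ℕ) + 50000 / HJ.kap N / X ^ 2 := by
  have hk := HJ.kap_pos N
  have hX := h.X_pos
  have hkc : (HJ.kap N : ℂ) ≠ 0 := by exact_mod_cast hk.ne'
  refine ⟨eta X p ^ (1 / 2 : ℂ) * (HJ.nu N X (et p X) - HJ.cs N X (et p X)) / HJ.kap N, ?_, ?_⟩
  · have e : HJ.EE X (et p X) * (Real.exp (X ^ 2 / 4) : ℝ) = exp (-et p X / 2) := by
      rw [HJ.EE, ofReal_exp, ← exp_add]
      congr 1
      push_cast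
      ring
    have h4 : ((X : ℂ) ^ 2 + 4) ≠ 0 := by exact_mod_cast (by positivity : X ^ 2 + 4 ≠ 0)
    rw [m0, HJ.R, sqrt_eta h, ← e]
    push_cast
    field_simp
  · have h1 := (hj_adm h).res_core hN
    rw [ww_eq h, norm_inv, Complex.norm_real, Real.norm_of_nonneg hX.le, inv_pow, inv_pow] at h1
    have e : eta X p ^ (1 / 2 : ℂ) * (HJ.nu N X (et p X) - HJ.cs N X (et p X)) / HJ.kap N -
        eta X p ^ (1 / 2 : ℂ) * (eta X p ^ (N + 1))⁻¹ = eta X p ^ (1 / 2 : ℂ) *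
        (HJ.nu N X (et p X) - HJ.cs N X (et p X) - HJ.kap N * (eta X p ^ (N + 1))⁻¹) /
          HJ.kap N := by
      field_simp
    have h7 := one_le_eta h
    have h2 : √‖eta X p‖ * ‖eta X p‖⁻¹ ≤ 1 := by
      rw [← div_eq_mul_inv, div_le_one (by linarith)]
      exact Real.sqrt_le_iff.2 ⟨by linarith, by nlinarith⟩
    rw [e, norm_div, norm_mul, norm_sqrt_eta h, Complex.norm_real, Real.norm_of_nonneg hk.le]
    calc _ ≤ √‖eta X p‖ * (3500 * (HJ.kap N * (‖eta X p‖ ^ (N + 1))⁻¹ / ((N : ℝ) + 1)) +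
          50000 * (‖eta X p‖⁻¹ / X ^ 2)) / HJ.kap N := by gcongr
      _ = 3500 * (√‖eta X p‖ * (‖eta X p‖ ^ (N + 1))⁻¹) / (N + 1 : ℕ) +
          50000 / HJ.kap N / X ^ 2 * (√‖eta X p‖ * ‖eta X p‖⁻¹) := by
        push_cast
        field_simp
      _ ≤ _ := add_le_add le_rfl (mul_le_of_le_one_right (by positivity) h2)

theorem Z_le (hN : HJ.N0 ≤ N) {Z : ℂ}
    (hZ : ‖Z - eta X p ^ (1 / 2 : ℂ) * (eta X p ^ (N + 1))⁻¹‖ ≤
      3500 * (√‖eta X p‖ * (‖eta X p‖ ^ (N + 1))⁻¹) / (N + 1 : ℕ) + 50000 / HJ.kap N / X ^ 2) :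
    ‖Z‖ ≤ 3501 / ‖eta X p‖ ^ 2 + 50000 / HJ.kap N / X ^ 2 := by
  have h7 := one_le_eta h
  have h1 : √‖eta X p‖ * (‖eta X p‖ ^ (N + 1))⁻¹ ≤ 1 / ‖eta X p‖ ^ 2 := by
    have a1 : √‖eta X p‖ ≤ ‖eta X p‖ := Real.sqrt_le_iff.2 ⟨by linarith, by nlinarith⟩
    have a2 : ‖eta X p‖ ^ 3 ≤ ‖eta X p‖ ^ (N + 1) :=
      pow_le_pow_right₀ (by linarith) (by unfold HJ.N0 at hN; omega)
    calc _ ≤ ‖eta X p‖ * (‖eta X p‖ ^ 3)⁻¹ := by gcongr
      _ = _ := by field_simp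
  have h2 := norm_add_le (Z - eta X p ^ (1 / 2 : ℂ) * (eta X p ^ (N + 1))⁻¹)
    (eta X p ^ (1 / 2 : ℂ) * (eta X p ^ (N + 1))⁻¹)
  rw [sub_add_cancel, norm_mul, norm_sqrt_eta h, norm_inv, norm_pow] at h2
  have h3 : 3500 * (√‖eta X p‖ * (‖eta X p‖ ^ (N + 1))⁻¹) / (N + 1 : ℕ) ≤
      3500 * (√‖eta X p‖ * (‖eta X p‖ ^ (N + 1))⁻¹) :=
    div_le_self (by positivity) (by exact_mod_cast Nat.succ_le_succ (Nat.zero_le N))
  have e : 3501 / ‖eta X p‖ ^ 2 = 3501 * (1 / ‖eta X p‖ ^ 2) := by ring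
  linarith

theorem fac_le : ‖exp (-et p X / 2) * (X ^ 2 / (X ^ 2 + 4) : ℝ)‖ ≤ 1 := by
  rw [norm_mul, norm_exp, Complex.norm_real, Real.norm_of_nonneg (by positivity)]
  refine mul_le_one₀ (Real.exp_le_one_iff.2 ?_) (by positivity)
    ((div_le_one (by positivity)).2 (by linarith))
  have := h.re_pos
  simp only [div_ofNat_re, neg_re]
  linarith

theorem m0_le (hN : HJ.N0 ≤ N) :
    ‖m0 N X (et p X)‖ ≤ 3501 / ‖eta X p‖ ^ 2 + 50000 / HJ.kap N / X ^ 2 := by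
  obtain ⟨Z, e, hZ⟩ := m0_eq h hN
  rw [e, norm_mul]
  exact (mul_le_of_le_one_left (norm_nonneg _) (fac_le h)).trans (Z_le h hN hZ)

theorem sub_le {a : ℂ} {E : ℝ} (hp : ‖hat X p - a‖ ≤ E / X ^ 4) :
    ‖p - a‖ ≤ (25 * Real.log (X ^ 2) + E) / X ^ 4 := by
  have hX := h.X_pos
  have e : p - a = (hat X p - a) - p ^ 2 * Lam X p := by unfold hat; ring
  have h1 : ‖p‖ ≤ 5 / 2 / X ^ 2 := by rw [le_div_iff₀ (by positivity)]; exact h.a_le
  have h2 : ‖p ^ 2 * Lam X p‖ ≤ (5 / 2 / X ^ 2) ^ 2 * (4 * Real.log (X ^ 2)) := by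
    rw [norm_mul, norm_pow]
    exact mul_le_mul (pow_le_pow_left₀ (norm_nonneg _) h1 2) (lam_le h) (norm_nonneg _)
      (by positivity)
  rw [e]
  refine (norm_sub_le _ _).trans ((add_le_add hp h2).trans (le_of_eq ?_))
  field_simp
  ring

/-- the exact relation between `u` and `η` -/
theorem tip_id {a u : ℂ} {E : ℝ} (hE : 0 ≤ E) (hp : ‖hat X p - a‖ ≤ E / X ^ 4)
    (hs : (25 * Real.log (X ^ 2) + E) / X ^ 2 ≤ 1 / 4) (ha : 1 / (2 * X ^ 2) ≤ ‖a‖)
    (hu : a * ((TL N X : ℝ) + u) = -2) : ∃ r : ℂ,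
    ‖r‖ ≤ 16 * (Real.log (X ^ 2) * (25 * Real.log (X ^ 2) + E) / X ^ 2) + 16 * E ∧
    1 / (4 * X ^ 2) ≤ ‖p‖ ∧ -2 * et p X / p = u + 2 * log (eta X p / 2) + 2 + c0 N - r ∧
    -2 / p - X ^ 2 = -2 + -2 * et p X / p := by
  have hX := h.X_pos
  have hl := one_le_ell h
  have h1 := sub_le h hp
  have h2 : (25 * Real.log (X ^ 2) + E) / X ^ 4 ≤ 1 / (4 * X ^ 2) := by
    have : (25 * Real.log (X ^ 2) + E) / X ^ 4 = (25 * Real.log (X ^ 2) + E) / X ^ 2 / X ^ 2 := by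
      field_simp
    rw [this, ← div_div]
    gcongr
  have h3 : 1 / (4 * X ^ 2) ≤ ‖p‖ := by
    have := norm_sub_norm_le a p
    rw [norm_sub_rev] at this
    have e : 1 / (2 * X ^ 2) = 2 * (1 / (4 * X ^ 2)) := by field_simp; ring
    linarith
  have ha0 : a ≠ 0 := norm_pos_iff.1 (lt_of_lt_of_le (by positivity) ha)
  have hp0 : p ≠ 0 := norm_pos_iff.1 (lt_of_lt_of_le (by positivity) h3)
  have i1 : ‖a‖⁻¹ ≤ 2 * X ^ 2 := by
    rw [inv_le_comm₀ (norm_pos_iff.2 ha0) (by positivity), ← one_div]; exact ha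
  have i2 : ‖p‖⁻¹ ≤ 4 * X ^ 2 := by
    rw [inv_le_comm₀ (norm_pos_iff.2 hp0) (by positivity), ← one_div]; exact h3
  refine ⟨2 * ((p - a) * a⁻¹ * Lam X p) - 2 * ((hat X p - a) * a⁻¹ * p⁻¹), ?_, h3, ?_, ?_⟩
  · refine (norm_sub_le _ _).trans ?_
    simp only [norm_mul, norm_inv, Complex.norm_ofNat]
    have hL := lam_le h
    calc _ ≤ 2 * ((25 * Real.log (X ^ 2) + E) / X ^ 4 * (2 * X ^ 2) * (4 * Real.log (X ^ 2))) +
          2 * (E / X ^ 4 * (2 * X ^ 2) * (4 * X ^ 2)) := by gcongr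
      _ = _ := by field_simp; ring
  · have e1 : u = -2 / a - (TL N X : ℝ) := by field_simp; linear_combination hu
    rw [log_half_eta h, e1]
    simp only [TL, hat, Lam, et]
    push_cast
    field_simp
    ring
  · simp only [et]
    field_simp
    ring

theorem log_half_le : ‖log (eta X p / 2)‖ ≤ ‖eta X p‖ / 20 + 12 := by
  have h7 := one_le_eta h
  have h1 := norm_log_le (ζ := eta X p / 2) (by
    have := eta_re h
    simp only [div_ofNat_re]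
    linarith)
  rw [norm_div, Complex.norm_ofNat, abs_of_nonneg (Real.log_nonneg (by linarith))] at h1
  have h2 : Real.log (‖eta X p‖ / 2) = Real.log 10 + Real.log (‖eta X p‖ / 20) := by
    rw [← Real.log_mul (by norm_num) (by positivity)]
    congr 1
    ring
  linarith [Real.log_le_sub_one_of_pos (show (0 : ℝ) < 10 by norm_num),
    Real.log_le_sub_one_of_pos (show 0 < ‖eta X p‖ / 20 by positivity)]

end

theorem ev_ell (n : ℕ) : Tendsto (fun X : ℝ => Real.log (X ^ 2) ^ n / X ^ 2) atTop (𝓝 0) := by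
  simpa [Function.comp_def] using (Real.tendsto_pow_log_div_mul_add_atTop 1 0 n one_ne_zero).comp
    (tendsto_pow_atTop two_ne_zero)

theorem ev_inv (c : ℝ) : Tendsto (fun X : ℝ => c / X ^ 2) atTop (𝓝 0) :=
  tendsto_const_nhds.div_atTop (tendsto_pow_atTop two_ne_zero)

theorem ev_TL (N : ℕ) : ∀ᶠ X : ℝ in atTop, X ^ 2 ≤ TL N X ∧ TL N X ≤ 2 * X ^ 2 := by
  have h1 : Tendsto (fun X : ℝ => 4 * (Real.log (X ^ 2) ^ 1 / X ^ 2) + c0 N / X ^ 2) atTop
      (𝓝 (4 * 0 + 0)) := ((ev_ell 1).const_mul 4).add (ev_inv _)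
  have h2 : Tendsto (fun X : ℝ => Real.log (X ^ 2)) atTop atTop :=
    Real.tendsto_log_atTop.comp (tendsto_pow_atTop two_ne_zero)
  filter_upwards [h1.eventually (gt_mem_nhds (show (4 * 0 + 0 : ℝ) < 1 by norm_num)),
    h2.eventually_ge_atTop (-c0 N / 4), eventually_gt_atTop 0] with X a b c
  rw [pow_one, ← mul_div_assoc, ← add_div, div_lt_one (by positivity)] at a
  unfold TL
  constructor <;> linarith

theorem ev_small (E : ℝ) {ε : ℝ} (hε : 0 < ε) : ∀ᶠ X : ℝ in atTop,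
    (25 * Real.log (X ^ 2) + E) / X ^ 2 ≤ ε ∧
      Real.log (X ^ 2) * (25 * Real.log (X ^ 2) + E) / X ^ 2 ≤ ε := by
  have h1 := ((ev_ell 1).const_mul 25).add (ev_inv E)
  have h2 := ((ev_ell 2).const_mul 25).add ((ev_ell 1).const_mul E)
  simp only [mul_zero, add_zero] at h1 h2
  filter_upwards [h1.eventually (ge_mem_nhds hε), h2.eventually (ge_mem_nhds hε)] with X a b
  constructor
  · refine le_trans (le_of_eq ?_) a
    ring
  · refine le_trans (le_of_eq ?_) b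
    ring

theorem ev_pt (N : ℕ) : ∀ᶠ X : ℝ in atTop, ∀ p, Adm (KK N) X p → Rg.Pt (KK N) X p X := by
  filter_upwards [eventually_ge_atTop 2, (tendsto_pow_atTop (α := ℝ) two_ne_zero).eventually_ge_atTop
    (4 * KK N)] with X a b p hp
  refine ⟨a, le_rfl, ?_, b, hp⟩
  unfold KK
  linarith [(Nat.cast_nonneg N : (0 : ℝ) ≤ N)]

/-- the bounds `crude0` and `crude` -/
theorem tip_crude {N : ℕ} (hN : HJ.N0 ≤ N) {E₀ : ℝ} : ∃ C₁, 0 ≤ C₁ ∧ ∀ᶠ X : ℝ in atTop,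
    ∀ (p a : ℂ) (E : ℝ), Adm (KK N) X p → 0 ≤ E → E ≤ E₀ → ‖hat X p - a‖ ≤ E / X ^ 4 →
      (‖a‖ ≤ 1 / TL N X → ‖m0 N X (et p X)‖ ≤ C₁ / X ^ 2) ∧
      ∀ u : ℂ, 1 / TL N X ≤ ‖a‖ → a * ((TL N X : ℝ) + u) = -2 →
        ‖m0 N X (et p X)‖ ≤ C₁ * (((1 + ‖u‖) ^ 2)⁻¹ + 1 / X ^ 2) := by
  have hk := HJ.kap_pos N
  set D : ℝ := 40 + |c0 N| + 16 * |E₀| with hD
  refine ⟨7000 + 3501 * D ^ 2 + 50000 / HJ.kap N, by positivity, ?_⟩
  filter_upwards [ev_TL N, ev_small E₀ (show (0 : ℝ) < 1 / 4 by norm_num), ev_pt N]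
    with X hT hs hpt p a E hp hE hE' hh
  have h := hpt p hp
  have hX := h.X_pos
  have hl := one_le_ell h
  have hm := m0_le h hN
  have h7 := one_le_eta h
  have hs1 : (25 * Real.log (X ^ 2) + E) / X ^ 2 ≤ 1 / 4 := le_trans (by gcongr) hs.1
  have hs2 : Real.log (X ^ 2) * (25 * Real.log (X ^ 2) + E) / X ^ 2 ≤ 1 / 4 :=
    le_trans (by gcongr) hs.2
  refine ⟨fun ha => hm.trans ?_, fun u ha hu => hm.trans ?_⟩
  · have a1 : ‖a‖ * X ^ 2 ≤ 1 := by
      rw [← le_div_iff₀ (by positivity)]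
      exact ha.trans (one_div_le_one_div_of_le (by positivity) hT.1)
    have a2 : ‖p - a‖ * X ^ 2 ≤ 1 / 4 := by
      refine le_trans ?_ hs1
      refine (mul_le_mul_of_nonneg_right (sub_le h hh) (by positivity)).trans (le_of_eq ?_)
      field_simp
    have a3 : ‖p‖ * X ^ 2 ≤ 5 / 4 := by
      have := mul_le_mul_of_nonneg_right (norm_sub_norm_le p a) (sq_nonneg X)
      linarith
    have a4 : 3 / 8 ≤ ‖et p X‖ := by
      have b1 := norm_sub_norm_le (1 : ℂ) (et p X)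
      have b2 : (1 : ℂ) - et p X = -(p * ((X ^ 2 - 2 : ℝ) : ℂ) / 2) := by
        unfold et; push_cast; ring
      rw [b2, norm_one, norm_neg, norm_div, norm_mul, Complex.norm_real,
        Real.norm_of_nonneg (by nlinarith [h.x2]), Complex.norm_ofNat] at b1
      nlinarith [norm_nonneg p]
    have a5 : 3 / 4 * X ^ 2 ≤ ‖eta X p‖ := by rw [norm_eta h]; nlinarith [sq_nonneg X]
    have a6 : 3501 / ‖eta X p‖ ^ 2 ≤ 7000 / X ^ 2 := by
      rw [div_le_div_iff₀ (by positivity) (by positivity)]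
      nlinarith
    have a7 : 0 ≤ 3501 * D ^ 2 / X ^ 2 := by positivity
    rw [add_div, add_div]
    linarith
  · obtain ⟨r, r1, r2, r3, -⟩ := tip_id h hE hh hs1
      ((one_div_le_one_div_of_le (by linarith [sq_pos_of_pos hX, hT.1]) hT.2).trans ha) hu
    have a1 : ‖-2 * et p X / p‖ ≤ 4 * ‖eta X p‖ := by
      rw [norm_div, norm_mul, norm_neg, Complex.norm_ofNat, norm_eta h,
        div_le_iff₀ (lt_of_lt_of_le (by positivity) r2)]
      rw [div_le_iff₀ (by positivity)] at r2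
      nlinarith [mul_le_mul_of_nonneg_left r2 (norm_nonneg (et p X))]
    have a2 : ‖u‖ ≤ 4 * ‖eta X p‖ + 2 * (‖eta X p‖ / 20 + 12) + 2 + |c0 N| + ‖r‖ := by
      have e : u = -2 * et p X / p - 2 * log (eta X p / 2) - 2 - c0 N + r := by
        linear_combination -r3
      rw [e]
      refine (norm_add_le _ _).trans (add_le_add ((norm_sub_le _ _).trans (add_le_add
        ((norm_sub_le _ _).trans (add_le_add ((norm_sub_le _ _).trans (add_le_add a1 ?_)) ?_))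
        ?_)) le_rfl)
      · rw [norm_mul, Complex.norm_ofNat]
        linarith [log_half_le h]
      · simp
      · simp
    have a3 : 1 + ‖u‖ ≤ D * ‖eta X p‖ := by
      have b1 : E ≤ |E₀| := hE'.trans (le_abs_self _)
      have b2 := le_mul_of_one_le_right (abs_nonneg (c0 N)) (show 1 ≤ ‖eta X p‖ by linarith)
      have b3 := le_mul_of_one_le_right (abs_nonneg E₀) (show 1 ≤ ‖eta X p‖ by linarith)
      rw [hD]
      linarith
    have a4 : 3501 / ‖eta X p‖ ^ 2 ≤ 3501 * D ^ 2 * ((1 + ‖u‖) ^ 2)⁻¹ := by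
      rw [← div_eq_mul_inv, div_le_div_iff₀ (by positivity) (by positivity), mul_assoc, ← mul_pow]
      gcongr
    have a5 : 0 ≤ ((1 + ‖u‖) ^ 2)⁻¹ := by positivity
    have a6 : 0 ≤ 1 / X ^ 2 := by positivity
    have a7 : 0 ≤ 50000 / HJ.kap N := by positivity
    have e : 50000 / HJ.kap N / X ^ 2 = 50000 / HJ.kap N * (1 / X ^ 2) := by ring
    nlinarith [mul_nonneg a7 a5, mul_nonneg (sq_nonneg D) a6]

/-- near the tip: the hypotheses of the bridge -/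
theorem tip_near (N : ℕ) (W : ℝ) {ε : ℝ} (hε : 0 < ε) : ∀ᶠ X : ℝ in atTop,
    ∀ (p a u : ℂ) (E : ℝ), Adm (KK N) X p → 0 ≤ E → E ≤ 1 → ‖hat X p - a‖ ≤ E / X ^ 4 →
      a * ((TL N X : ℝ) + u) = -2 → ‖u‖ ≤ W → ‖et p X‖ ≤ ε ∧
      ‖eta X p - 4 * log (eta X p) - (8 * (N + 1 : ℕ) - 4 * log (8 * (N + 1 : ℕ))) - 2 * u‖ ≤
        32 * E + ε := by
  set H : ℝ := 4 * (W + 50 + |c0 N|) with hH
  filter_upwards [ev_TL N, ev_small 1 (show (0 : ℝ) < 1 / 4 by norm_num),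
    ev_small 1 (show (0 : ℝ) < ε / 64 by positivity), ev_pt N,
    (ev_inv (H * (2 + 4 * H))).eventually (ge_mem_nhds (half_pos hε)),
    (ev_inv H).eventually (ge_mem_nhds hε),
    (tendsto_pow_atTop (α := ℝ) two_ne_zero).eventually_ge_atTop W]
    with X hT hs hs' hpt hH1 hH2 hW p a u E hp hE hE' hh hu huW
  have h := hpt p hp
  have hX := h.X_pos
  have hl := one_le_ell h
  have h7 := one_le_eta h
  have hs1 : (25 * Real.log (X ^ 2) + E) / X ^ 2 ≤ 1 / 4 := le_trans (by gcongr) hs.1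
  have hs2 : Real.log (X ^ 2) * (25 * Real.log (X ^ 2) + E) / X ^ 2 ≤ 1 / 4 :=
    le_trans (by gcongr) hs.2
  have hs3 : Real.log (X ^ 2) * (25 * Real.log (X ^ 2) + E) / X ^ 2 ≤ ε / 64 :=
    le_trans (by gcongr) hs'.2
  have ha : 1 / (2 * X ^ 2) ≤ ‖a‖ := by
    have b1 := congrArg norm hu
    rw [norm_mul, norm_neg, Complex.norm_ofNat] at b1
    have b2 : ‖((TL N X : ℝ) : ℂ) + u‖ ≤ 4 * X ^ 2 := by
      refine (norm_add_le _ _).trans ?_
      rw [Complex.norm_real, Real.norm_of_nonneg (by linarith [sq_nonneg X, hT.1])]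
      linarith [sq_nonneg X, hT.2]
    rw [div_le_iff₀ (by positivity)]
    linarith [mul_le_mul_of_nonneg_left b2 (norm_nonneg a)]
  obtain ⟨r, r1, r2, r3, r4⟩ := tip_id h hE hh hs1 ha hu
  have hp0 : 0 < ‖p‖ := lt_of_lt_of_le (by positivity) r2
  have a0 : ‖-2 * et p X / p‖ ≤ 4 * ‖eta X p‖ := by
    rw [norm_div, norm_mul, norm_neg, Complex.norm_ofNat, norm_eta h, div_le_iff₀ hp0]
    rw [div_le_iff₀ (by positivity)] at r2
    nlinarith [mul_le_mul_of_nonneg_left r2 (norm_nonneg (et p X))]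
  have a1 : 2 / 5 * ‖eta X p‖ ≤ ‖-2 * et p X / p‖ := by
    rw [norm_div, norm_mul, norm_neg, Complex.norm_ofNat, norm_eta h, le_div_iff₀ hp0]
    nlinarith [mul_le_mul_of_nonneg_left h.a_le (norm_nonneg (et p X))]
  have a2 : ‖-2 * et p X / p‖ ≤ W + 2 * (‖eta X p‖ / 20 + 12) + 2 + |c0 N| + ‖r‖ := by
    rw [r3]
    refine (norm_sub_le _ _).trans (add_le_add ((norm_add_le _ _).trans (add_le_add
      ((norm_add_le _ _).trans (add_le_add ((norm_add_le _ _).trans (add_le_add huW ?_)) ?_))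
      ?_)) le_rfl)
    · rw [norm_mul, Complex.norm_ofNat]
      linarith [log_half_le h]
    · simp
    · simp
  have hW0 : 0 ≤ W := (norm_nonneg _).trans huW
  have a3 : ‖eta X p‖ ≤ H := by rw [hH]; linarith [abs_nonneg (c0 N)]
  have a4 : ‖et p X‖ ≤ H / X ^ 2 / 2 := by
    rw [norm_eta h] at a3
    rw [div_div, le_div_iff₀ (by positivity)]
    linarith
  have hH0 : 0 ≤ H / X ^ 2 := by have : 0 ≤ H := by linarith
                                 positivity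
  refine ⟨by linarith, ?_⟩
  have hM : (0 : ℝ) < 4 * ((N : ℝ) + 1) := by positivity
  have e1 : log (8 * ((N + 1 : ℕ) : ℂ)) = Real.log 2 + Real.log (4 * ((N : ℝ) + 1)) := by
    rw [← ofReal_add, ← Real.log_mul two_ne_zero hM.ne', ofReal_log (by positivity)]
    congr 1
    push_cast
    ring
  have e2 : eta X p - 4 * log (eta X p) - (8 * (N + 1 : ℕ) - 4 * log (8 * (N + 1 : ℕ))) - 2 * u =
      -2 * (et p X * (-2 + -2 * et p X / p)) - 2 * r := by
    have e3 : u = -2 * et p X / p - 2 * log (eta X p / 2) - 2 - c0 N + r := by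
      linear_combination -r3
    rw [← r4, e1, log_eta h, e3]
    simp only [c0, eta]
    push_cast
    ring
  have a5 : ‖et p X * (-2 + -2 * et p X / p)‖ ≤ H / X ^ 2 / 2 * (2 + 4 * H) := by
    rw [norm_mul]
    refine mul_le_mul a4 ((norm_add_le _ _).trans (add_le_add (by simp) (by linarith)))
      (norm_nonneg _) (by positivity)
  have e4 : H / X ^ 2 / 2 * (2 + 4 * H) = H * (2 + 4 * H) / X ^ 2 / 2 := by ring
  rw [e2]
  refine (norm_sub_le _ _).trans ?_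
  simp only [norm_mul (-2 : ℂ), norm_mul (2 : ℂ), norm_neg, Complex.norm_ofNat]
  linarith

/-- **Tip lemma**: `Ker` and the bounds `crude0`, `crude`, `sharp` for `m0`. -/
theorem tip (C₀ : ℝ) (q : ℕ) : ∃ N₁ : ℕ, HJ.N0 ≤ N₁ ∧ ∀ N, N₁ ≤ N → ∃ (Mj : ℝ → ℝ) (Ck : ℝ),
    B2.Ker (ph (N + 1)) Mj q Ck ∧ ∀ k C : ℝ, 0 < k →
      (∃ C₁, 0 ≤ C₁ ∧ ∀ᶠ X : ℝ in atTop, ∀ p a : ℂ, Adm (KK N) X p →
        ‖hat X p - a‖ ≤ (C₀ / ((N : ℝ) + 1) + C * X ^ (-k)) / X ^ 4 →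
        (‖a‖ ≤ 1 / TL N X → ‖m0 N X (et p X)‖ ≤ C₁ / X ^ 2) ∧
        ∀ u : ℂ, 1 / TL N X ≤ ‖a‖ → a * ((TL N X : ℝ) + u) = -2 →
          ‖m0 N X (et p X)‖ ≤ C₁ * (((1 + ‖u‖) ^ 2)⁻¹ + 1 / X ^ 2)) ∧
      ∀ W ε : ℝ, 0 < ε → ∀ᶠ X : ℝ in atTop, ∀ p a u : ℂ, Adm (KK N) X p →
        ‖hat X p - a‖ ≤ (C₀ / ((N : ℝ) + 1) + C * X ^ (-k)) / X ^ 4 →
        a * ((TL N X : ℝ) + u) = -2 → ‖u‖ ≤ W → -1 ≤ u.re →
          ‖m0 N X (et p X) - ph (N + 1) u‖ ≤ Mj u.im + ε := by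
  obtain ⟨M₀, -, hM₀⟩ := ker q (C₀ := 3500) (by norm_num)
  obtain ⟨M₁, hM₁⟩ := exists_nat_ge ((128 * |C₀|) ^ 2)
  refine ⟨HJ.N0 + M₀ + M₁, by omega, fun N hN => ?_⟩
  obtain ⟨Mj, Ck, hK, hB⟩ := hM₀ (N + 1) (by omega)
  have hN0 : HJ.N0 ≤ N := by omega
  have hM : (1 : ℝ) ≤ (N + 1 : ℕ) := by exact_mod_cast Nat.succ_le_succ (Nat.zero_le N)
  have hr1 : 1 ≤ √((N + 1 : ℕ) : ℝ) := Real.one_le_sqrt.2 hM
  have hr2 : 128 * |C₀| ≤ √((N + 1 : ℕ) : ℝ) := Real.le_sqrt_of_sq_le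
    (hM₁.trans (by exact_mod_cast (show M₁ ≤ N + 1 by omega)))
  set th : ℝ := 1 / √((N + 1 : ℕ) : ℝ) with hth
  have hth0 : 0 < th := by positivity
  have hth1 : th ≤ 1 := by rw [hth, div_le_one (by linarith)]; exact hr1
  have hc : C₀ / ((N : ℝ) + 1) ≤ th / 128 := by
    have e : ((N : ℝ) + 1) = √((N + 1 : ℕ) : ℝ) * √((N + 1 : ℕ) : ℝ) := by
      rw [Real.mul_self_sqrt (by positivity)]; push_cast; ring
    rw [e, hth, div_div, div_le_div_iff₀ (by positivity) (by positivity)]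
    nlinarith [le_abs_self C₀]
  refine ⟨Mj, Ck, hK, fun k C hk => ?_⟩
  have hev : ∀ᶠ X : ℝ in atTop, (C₀ / ((N : ℝ) + 1) + C * X ^ (-k)) / X ^ 4 ≤ th / 64 / X ^ 4 := by
    have := (tendsto_rpow_neg_atTop hk).const_mul C
    rw [mul_zero] at this
    filter_upwards [this.eventually (ge_mem_nhds (show 0 < th / 128 by positivity))] with X a
    gcongr
    linarith
  refine ⟨?_, fun W ε hε => ?_⟩
  · obtain ⟨C₁, h0, h1⟩ := tip_crude hN0 (E₀ := 1)
    refine ⟨C₁, h0, ?_⟩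
    filter_upwards [h1, hev] with X a b p a' hp hh
    exact a p a' (th / 64) hp (by positivity) (by linarith) (hh.trans b)
  · have hkap := HJ.kap_pos N
    set δ : ℝ := min (th / 2) (ε / 10000) with hδ
    have hδ0 : 0 < δ := lt_min (by positivity) (by positivity)
    have hδ1 : δ ≤ th / 2 := min_le_left _ _
    have hδ2 : δ ≤ ε / 10000 := min_le_right _ _
    filter_upwards [tip_near N W hδ0, hev, ev_pt N,
      (ev_inv (50000 / HJ.kap N)).eventually (ge_mem_nhds hδ0),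
      (ev_inv 4).eventually (ge_mem_nhds hδ0)] with X h1 h2 h3 h4 h5 p a u hp hh hu huW hre
    have h := h3 p hp
    have hX := h.X_pos
    obtain ⟨b1, b2⟩ := h1 p a u (th / 64) hp (by positivity) (by linarith) (hh.trans h2) hu huW
    obtain ⟨Z, e, hZ⟩ := m0_eq h hN0
    have hZ1 := Z_le h hN0 hZ
    obtain ⟨y, y1, y2⟩ := split_norm (by positivity) (by positivity) hZ
    have c1 := hB u (eta X p) (y + eta X p ^ (1 / 2 : ℂ) * (eta X p ^ (N + 1))⁻¹) hre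
      (by have := eta_ge h; push_cast; linarith [(Nat.cast_nonneg N : (0 : ℝ) ≤ N)]) (eta_re h)
      (by linarith) (by rwa [add_sub_cancel_right])
    have c2 : ‖Z‖ ≤ 101 := by
      have : 3501 / ‖eta X p‖ ^ 2 ≤ 100 := by
        have := one_le_eta h
        rw [div_le_iff₀ (by positivity)]
        nlinarith
      linarith
    have c3 : ‖exp (-et p X / 2) * (X ^ 2 / (X ^ 2 + 4) : ℝ) - 1‖ ≤ 2 * δ := by
      have d1 : ‖exp (-et p X / 2) - 1‖ ≤ δ := by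
        have d0 : ‖-et p X / 2‖ ≤ δ / 2 := by
          rw [norm_div, norm_neg, Complex.norm_ofNat]; linarith
        linarith [norm_exp_sub_one_le (x := -et p X / 2) (by linarith)]
      have d2 : X ^ 2 / (X ^ 2 + 4) ≤ 1 := (div_le_one (by positivity)).2 (by linarith)
      have d3 : 1 - X ^ 2 / (X ^ 2 + 4) ≤ 4 / X ^ 2 := by
        rw [one_sub_div (by positivity), add_sub_cancel_left]
        gcongr
        linarith
      have d4 : exp (-et p X / 2) * (X ^ 2 / (X ^ 2 + 4) : ℝ) - 1 =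
          (exp (-et p X / 2) - 1) * (X ^ 2 / (X ^ 2 + 4) : ℝ) -
            ((1 - X ^ 2 / (X ^ 2 + 4) : ℝ) : ℂ) := by push_cast; ring
      rw [d4]
      refine (norm_sub_le _ _).trans ?_
      rw [norm_mul, Complex.norm_real, Complex.norm_real, Real.norm_of_nonneg (by positivity),
        Real.norm_of_nonneg (by linarith)]
      linarith [mul_le_of_le_one_right (norm_nonneg (exp (-et p X / 2) - 1)) d2]
    have c4 : m0 N X (et p X) - ph (N + 1) u =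
        (exp (-et p X / 2) * (X ^ 2 / (X ^ 2 + 4) : ℝ) - 1) * Z +
        (Z - eta X p ^ (1 / 2 : ℂ) * (eta X p ^ (N + 1))⁻¹ - y) +
        (y + eta X p ^ (1 / 2 : ℂ) * (eta X p ^ (N + 1))⁻¹ - ph (N + 1) u) := by
      rw [e]; ring
    have c5 : ‖(exp (-et p X / 2) * (X ^ 2 / (X ^ 2 + 4) : ℝ) - 1) * Z‖ ≤ 2 * δ * 101 := by
      rw [norm_mul]
      gcongr
    rw [c4]
    refine (norm_add_le _ _).trans ((add_le_add (norm_add_le _ _) c1).trans ?_)
    linarith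

end Crest.Agent.N250.Hk

end
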